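import Vale.Agent.P338.Model

namespace Vale.Agent.P338

theorem ofBits_eq_sum : ∀ (n : ℕ) (f : Fin n → Bool),
    Nat.ofBits f = ∑ i : Fin n, (f i).toNat * 2 ^ (i : ℕ) := by
  intro n
  induction n with
  | zero => intro f; simp
  | succ n ih =>
    intro f
    rw [Nat.ofBits_succ, ih, Fin.sum_univ_succ, Finset.mul_sum]
    simp only [Function.comp, Fin.val_zero, pow_zero, mul_one, Fin.val_succ]
    rw [add_comm]
    congr 1
    apply Finset.sum_congr rfl
    intro i _
    ring

theorem val_eq_ofBits {n : ℕ} (y : Fin n → Bool) : val y = Nat.ofBits (fun i => y (Fin.rev i)) := by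
  rw [ofBits_eq_sum, val]
  rw [← Equiv.sum_comp Fin.revPerm]
  apply Finset.sum_congr rfl
  intro i _
  simp only [Fin.revPerm_apply, Fin.val_rev]
  congr 2
  have := i.2
  omega

theorem val_testBit {n : ℕ} (y : Fin n → Bool) (i : Fin n) :
    (val y).testBit (n - 1 - (i : ℕ)) = y i := by
  have hi := i.2
  rw [val_eq_ofBits, Nat.testBit_ofBits_lt _ _ (by omega)]
  congr 1
  apply Fin.ext
  simp only [Fin.val_rev]
  omega

/-- the string `1 0 ... 0` -/
def topBit (n : ℕ) : Fin n → Bool := fun i => decide ((i : ℕ) = 0)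

theorem val_topBit (n : ℕ) (hn : 1 ≤ n) : val (topBit n) = 2 ^ (n - 1) := by
  rw [val, Finset.sum_eq_single (⟨0, hn⟩ : Fin n)]
  · simp [topBit]
  · intro b _ hb
    have : (b : ℕ) ≠ 0 := fun h => hb (Fin.ext h)
    simp [topBit, this]
  · intro h; exact absurd (Finset.mem_univ _) h

theorem shift_bit {n : ℕ} (hn : 1 ≤ n) (y : Fin n → Bool) (i : Fin n) :
    (val (topBit n) * val y).testBit (2 * n - 1 - ((i : ℕ) + 1)) = y i := by
  have hi := i.2
  rw [val_topBit n hn, Nat.testBit_two_pow_mul]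
  have h1 : 2 * n - 1 - ((i : ℕ) + 1) ≥ n - 1 := by omega
  have h2 : 2 * n - 1 - ((i : ℕ) + 1) - (n - 1) = n - 1 - (i : ℕ) := by omega
  rw [h2, val_testBit]
  simp [h1]

end Vale.Agent.P338
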