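import Vale.Agent.P338.Crossing

namespace Vale.Agent.P338

theorem iter_add {k : ℕ} (A : Machine k) (s t : ℕ) (c : Cfg A) :
    iter A (s + t) c = (iter A s c).bind (iter A t) := by
  induction s generalizing c with
  | zero => simp [iter]
  | succ s ih =>
    have : s + 1 + t = (s + t) + 1 := by omega
    rw [this]
    simp only [iter]
    cases h : step A c with
    | none => simp
    | some c1 => simp [ih]

theorem haltsAt_unique {k : ℕ} (A : Machine k) (c : Cfg A) (t1 t2 : ℕ) (c1 c2 : Cfg A)
    (h1 : HaltsAt A c t1 c1) (h2 : HaltsAt A c t2 c2) : t1 = t2 := by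
  have key : ∀ (t1 t2 : ℕ) (c1 c2 : Cfg A), HaltsAt A c t1 c1 → HaltsAt A c t2 c2 → ¬ t1 < t2 := by
    intro t1 t2 c1 c2 h1 h2 hlt
    obtain ⟨d, rfl⟩ := Nat.exists_eq_add_of_lt hlt
    have h3 := h2.1
    have : t1 + d + 1 = t1 + (d + 1) := by omega
    rw [this, iter_add, h1.1] at h3
    simp [iter, h1.2] at h3
  have a := key t1 t2 c1 c2 h1 h2
  have b := key t2 t1 c2 c1 h2 h1
  omega

theorem haltTime_eq {k : ℕ} (A : Machine k) (c : Cfg A) (t : ℕ) (c' : Cfg A)
    (h : HaltsAt A c t c') : haltTime A c = t := by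
  have hne : {t | ∃ c', HaltsAt A c t c'}.Nonempty := ⟨t, c', h⟩
  obtain ⟨c2, h2⟩ := Nat.sInf_mem hne
  exact haltsAt_unique A c _ _ _ _ h2 h

/-- transition function of a one-tape machine in flat form -/
def flatδ (A : Machine 1) : A.Q → A.Γ → Option (A.Q × A.Γ × Dir) :=
  fun q a => (A.δ q (fun _ => a)).map fun r => (r.1, r.2.1 0, r.2.2 0)

def flat {A : Machine 1} (c : Cfg A) : FC A.Q A.Γ := ⟨c.q, c.head 0, c.tape 0⟩

theorem flat_step (A : Machine 1) (c : Cfg A) :
    (step A c).map flat = fstep (flatδ A) (flat c) := by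
  have h0 : (fun i : Fin 1 => c.tape i (c.head i)) = fun _ => c.tape 0 (c.head 0) := by
    funext i; rw [Subsingleton.elim i 0]
  simp only [step, fstep, flatδ, flat, h0, Option.map_map]
  rfl

theorem flat_iter (A : Machine 1) (t : ℕ) (c : Cfg A) :
    (iter A t c).map flat = fiter (flatδ A) t (flat c) := by
  induction t generalizing c with
  | zero => rfl
  | succ t ih =>
    simp only [iter, fiter]
    rw [← flat_step]
    cases h : step A c with
    | none => simp
    | some c1 => simp [ih]

theorem flat_halts (A : Machine 1) (c c' : Cfg A) (t : ℕ) (h : HaltsAt A c t c') :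
    fiter (flatδ A) t (flat c) = some (flat c') ∧ fstep (flatδ A) (flat c') = none := by
  constructor
  · rw [← flat_iter, h.1]; rfl
  · rw [← flat_step, h.2]; rfl

end Vale.Agent.P338
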