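import Vale.Agent.P338.Model

namespace Vale.Agent.P338

variable {Q Γ : Type}

/-- flat one-tape configuration -/
structure FC (Q Γ : Type) where
  q : Q
  h : ℕ
  τ : ℕ → Γ

def fstep (δ : Q → Γ → Option (Q × Γ × Dir)) (c : FC Q Γ) : Option (FC Q Γ) :=
  (δ c.q (c.τ c.h)).map fun r =>
    { q := r.1, h := r.2.2.apply c.h, τ := Function.update c.τ c.h r.2.1 }

def fiter (δ : Q → Γ → Option (Q × Γ × Dir)) : ℕ → FC Q Γ → Option (FC Q Γ)
  | 0, c => some c
  | t + 1, c => (fstep δ c).bind (fiter δ t)

def mask (bl : Γ) (b : ℕ) (τ : ℕ → Γ) : ℕ → Γ := fun i => if i < b then τ i else bl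

/-- left view -/
def view (bl : Γ) (b : ℕ) (c : FC Q Γ) : Option (Q × ℕ) × (ℕ → Γ) :=
  (if c.h < b then some (c.q, c.h) else none, mask bl b c.τ)

def lstep (δ : Q → Γ → Option (Q × Γ × Dir)) (b : ℕ) :
    (Option (Q × ℕ) × (ℕ → Γ)) × List Q → Option ((Option (Q × ℕ) × (ℕ → Γ)) × List Q)
  | ((some (q, h), σ), s) =>
      (δ q (σ h)).map fun r =>
        ((if r.2.2.apply h < b then some (r.1, r.2.2.apply h) else none,
          Function.update σ h r.2.1), s)
  | ((none, _), []) => none
  | ((none, σ), q :: s) => some ((some (q, b - 1), σ), s)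

def lrun (δ : Q → Γ → Option (Q × Γ × Dir)) (b : ℕ) :
    ℕ → (Option (Q × ℕ) × (ℕ → Γ)) × List Q → (Option (Q × ℕ) × (ℕ → Γ)) × List Q
  | 0, s => s
  | m + 1, s => match lstep δ b s with
    | none => s
    | some s' => lrun δ b m s'

/-- states in which the head enters the left part, in a run of at most `t` steps -/
def cs (δ : Q → Γ → Option (Q × Γ × Dir)) (b : ℕ) : ℕ → FC Q Γ → List Q
  | 0, _ => []
  | t + 1, c => match fstep δ c with
    | none => []
    | some c' => (if b ≤ c.h ∧ c'.h < b then [c'.q] else []) ++ cs δ b t c'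

theorem lrun_of_terminal (δ : Q → Γ → Option (Q × Γ × Dir)) (b m : ℕ)
    (s : (Option (Q × ℕ) × (ℕ → Γ)) × List Q) (hs : lstep δ b s = none) : lrun δ b m s = s := by
  cases m with
  | zero => rfl
  | succ m => simp [lrun, hs]

theorem lrun_add (δ : Q → Γ → Option (Q × Γ × Dir)) (b m k : ℕ)
    (s : (Option (Q × ℕ) × (ℕ → Γ)) × List Q) :
    lrun δ b (m + k) s = lrun δ b k (lrun δ b m s) := by
  induction m generalizing s with
  | zero => simp [lrun]
  | succ m ih =>
    have : m + 1 + k = (m + k) + 1 := by omega
    rw [this]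
    cases hs : lstep δ b s with
    | none =>
      simp only [lrun, hs]
      exact (lrun_of_terminal δ b k s hs).symm
    | some s' =>
      simp only [lrun, hs]
      exact ih s'

theorem terminal_unique (δ : Q → Γ → Option (Q × Γ × Dir)) (b m1 m2 : ℕ)
    (s f1 f2 : (Option (Q × ℕ) × (ℕ → Γ)) × List Q)
    (h1 : lrun δ b m1 s = f1) (t1 : lstep δ b f1 = none)
    (h2 : lrun δ b m2 s = f2) (t2 : lstep δ b f2 = none) : f1 = f2 := by
  rcases le_total m1 m2 with h | h
  · obtain ⟨k, rfl⟩ := Nat.exists_eq_add_of_le h
    rw [lrun_add, h1, lrun_of_terminal δ b k f1 t1] at h2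
    exact h2
  · obtain ⟨k, rfl⟩ := Nat.exists_eq_add_of_le h
    rw [lrun_add, h2, lrun_of_terminal δ b k f2 t2] at h1
    exact h1.symm

theorem mask_update_lt (bl : Γ) (b h : ℕ) (τ : ℕ → Γ) (a : Γ) (hh : h < b) :
    mask bl b (Function.update τ h a) = Function.update (mask bl b τ) h a := by
  funext i
  by_cases hi : i = h
  · subst hi; simp [mask, hh]
  · simp [mask, Function.update_of_ne hi]

theorem mask_update_ge (bl : Γ) (b h : ℕ) (τ : ℕ → Γ) (a : Γ) (hh : b ≤ h) :
    mask bl b (Function.update τ h a) = mask bl b τ := by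
  funext i
  by_cases hi : i < b
  · have : i ≠ h := by omega
    simp [mask, hi, Function.update_of_ne this]
  · simp [mask, hi]

theorem apply_ge (d : Dir) (h : ℕ) : h - 1 ≤ d.apply h := by
  cases d <;> simp [Dir.apply]; omega

theorem apply_le (d : Dir) (h : ℕ) : d.apply h ≤ h + 1 := by
  cases d <;> simp [Dir.apply]; omega

/-- Simulation of the left view by the left machine. -/
theorem sim (δ : Q → Γ → Option (Q × Γ × Dir)) (bl : Γ) (b : ℕ) (hb : 1 ≤ b) (t : ℕ) :
    ∀ (c c' : FC Q Γ), fiter δ t c = some c' → fstep δ c' = none →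
      ∃ m, lrun δ b m (view bl b c, cs δ b t c) = (view bl b c', []) ∧
        lstep δ b (view bl b c', []) = none := by
  induction t with
  | zero =>
    intro c c' h1 h2
    simp only [fiter, Option.some.injEq] at h1
    subst h1
    refine ⟨0, rfl, ?_⟩
    by_cases hh : c.h < b
    · simp only [view, hh, if_true, lstep]
      have : mask bl b c.τ c.h = c.τ c.h := by simp [mask, hh]
      rw [this]
      simp only [fstep, Option.map_eq_none_iff] at h2
      simp [h2]
    · simp [view, hh, lstep]
  | succ t ih =>
    intro c c' h1 h2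
    simp only [fiter] at h1
    cases hs : fstep δ c with
    | none => simp [hs] at h1
    | some c1 =>
      simp only [hs, Option.bind_some] at h1
      obtain ⟨m, hm, hterm⟩ := ih c1 c' h1 h2
      simp only [fstep, Option.map_eq_some_iff] at hs
      obtain ⟨r, hr, hc1⟩ := hs
      have hfs : fstep δ c = some c1 := by
        simp only [fstep, Option.map_eq_some_iff]; exact ⟨r, hr, hc1⟩
      by_cases hh : c.h < b
      · refine ⟨m + 1, ?_, hterm⟩
        have hcs : cs δ b (t + 1) c = cs δ b t c1 := by
          simp only [cs, hfs]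
          have : ¬ (b ≤ c.h ∧ c1.h < b) := by omega
          simp [this]
        rw [hcs]
        have hl : lstep δ b (view bl b c, cs δ b t c1) = some (view bl b c1, cs δ b t c1) := by
          simp only [view, hh, if_true, lstep]
          have : mask bl b c.τ c.h = c.τ c.h := by simp [mask, hh]
          rw [this, hr]
          subst hc1
          simp [mask_update_lt bl b c.h c.τ r.2.1 hh]
        simp only [lrun, hl]
        exact hm
      · have hbh : b ≤ c.h := by omega
        have hmask : mask bl b c1.τ = mask bl b c.τ := by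
          subst hc1
          exact mask_update_ge bl b c.h c.τ r.2.1 hbh
        by_cases hh1 : c1.h < b
        · refine ⟨m + 1, ?_, hterm⟩
          have hcs : cs δ b (t + 1) c = c1.q :: cs δ b t c1 := by
            simp only [cs, hfs]
            simp [hbh, hh1]
          rw [hcs]
          have hc1h : c1.h = b - 1 := by
            have := apply_ge r.2.2 c.h
            have h3 : c1.h = r.2.2.apply c.h := by subst hc1; rfl
            omega
          have hl : lstep δ b (view bl b c, c1.q :: cs δ b t c1)
              = some (view bl b c1, cs δ b t c1) := by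
            have hb1 : b - 1 < b := by omega
            simp only [view, hh, if_false, lstep, hmask, hc1h, hb1, if_true]
          simp only [lrun, hl]
          exact hm
        · refine ⟨m, ?_, hterm⟩
          have hcs : cs δ b (t + 1) c = cs δ b t c1 := by
            simp only [cs, hfs]
            simp [hh1]
          rw [hcs]
          have hv : view bl b c = view bl b c1 := by
            simp only [view, hh, hh1, if_false, hmask]
          rw [hv]
          exact hm

/-- Crossing-sequence lemma: the final content of the left part is determined by the initial left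
view and the sequence of entering states. -/
theorem final_left_eq (δ : Q → Γ → Option (Q × Γ × Dir)) (bl : Γ) (b : ℕ) (hb : 1 ≤ b)
    (t1 t2 : ℕ) (c1 c1' c2 c2' : FC Q Γ)
    (h1 : fiter δ t1 c1 = some c1') (e1 : fstep δ c1' = none)
    (h2 : fiter δ t2 c2 = some c2') (e2 : fstep δ c2' = none)
    (hv : view bl b c1 = view bl b c2) (hcs : cs δ b t1 c1 = cs δ b t2 c2) :
    ∀ i, i < b → c1'.τ i = c2'.τ i := by
  obtain ⟨m1, r1, z1⟩ := sim δ bl b hb t1 c1 c1' h1 e1
  obtain ⟨m2, r2, z2⟩ := sim δ bl b hb t2 c2 c2' h2 e2
  rw [hv, hcs] at r1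
  have := terminal_unique δ b m1 m2 _ _ _ r1 z1 r2 z2
  have h3 : mask bl b c1'.τ = mask bl b c2'.τ := by
    have := congrArg (fun p => p.1.2) this
    simpa [view] using this
  intro i hi
  have := congrFun h3 i
  simpa [mask, hi] using this

/-- Total number of crossings is at most the number of steps. -/
theorem sum_cs_le (δ : Q → Γ → Option (Q × Γ × Dir)) (S : Finset ℕ) (t : ℕ) :
    ∀ c : FC Q Γ, ∑ b ∈ S, (cs δ b t c).length ≤ t := by
  induction t with
  | zero => intro c; simp [cs]
  | succ t ih =>
    intro c
    cases hs : fstep δ c with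
    | none => simp [cs, hs]
    | some c1 =>
      have h1 : ∀ b ∈ S, (cs δ b (t + 1) c).length
          = (if b = c.h ∧ c1.h < b then 1 else 0) + (cs δ b t c1).length := by
        intro b _
        simp only [cs, hs, List.length_append]
        congr 1
        simp only [fstep, Option.map_eq_some_iff] at hs
        obtain ⟨r, _, hc1⟩ := hs
        have h3 : c1.h = r.2.2.apply c.h := by subst hc1; rfl
        have h4 := apply_ge r.2.2 c.h
        by_cases hb : b ≤ c.h ∧ c1.h < b
        · have : b = c.h ∧ c1.h < b := ⟨by omega, hb.2⟩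
          rw [if_pos hb, if_pos this]; rfl
        · have : ¬ (b = c.h ∧ c1.h < b) := by
            rintro ⟨h5, h6⟩; exact hb ⟨by omega, h6⟩
          rw [if_neg hb, if_neg this]; rfl
      rw [Finset.sum_congr rfl h1, Finset.sum_add_distrib]
      have h2 : ∑ b ∈ S, (if b = c.h ∧ c1.h < b then 1 else 0) ≤ 1 := by
        calc ∑ b ∈ S, (if b = c.h ∧ c1.h < b then 1 else 0)
            ≤ ∑ b ∈ S, (if b = c.h then 1 else 0) := by
              apply Finset.sum_le_sum
              intro b _
              by_cases h5 : b = c.h
              · rw [if_pos h5]; split_ifs <;> simp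
              · have : ¬ (b = c.h ∧ c1.h < b) := fun h => h5 h.1
                rw [if_neg this]; simp
          _ ≤ 1 := by
              rw [Finset.sum_ite_eq']
              split_ifs <;> simp
      have := ih c1
      omega

end Vale.Agent.P338
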