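import Mathlib

namespace Vale.Agent.P338

/-- Head moves: left, stay, right. -/
inductive Dir
  | left
  | stay
  | right

/-- Position of a head after a move; tapes are one-way infinite with leftmost cell `0`,
and a left move on the leftmost cell leaves the head there. -/
def Dir.apply : Dir → ℕ → ℕ
  | Dir.left, h => h - 1
  | Dir.stay, h => h
  | Dir.right, h => h + 1

/-- A deterministic Turing machine with `k` one-dimensional tapes, a finite alphabet `Γ`
(containing a blank, the two bits `sym (some b)` and the separator `sym none`), a finite state
set `Q`, a transition function `δ` (value `none` means that the machine halts) and a designated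
output tape `out`. -/
structure Machine (k : ℕ) where
  Γ : Type
  Q : Type
  finΓ : Fintype Γ
  finQ : Fintype Q
  blank : Γ
  sym : Option Bool → Γ
  sym_inj : Function.Injective sym
  sym_ne_blank : ∀ s, sym s ≠ blank
  start : Q
  δ : Q → (Fin k → Γ) → Option (Q × (Fin k → Γ) × (Fin k → Dir))
  out : Fin k

/-- A configuration: state, tape contents, head positions. -/
structure Cfg {k : ℕ} (A : Machine k) where
  q : A.Q
  tape : Fin k → ℕ → A.Γ
  head : Fin k → ℕ

/-- One step; `none` if the machine has halted. -/
def step {k : ℕ} (A : Machine k) (c : Cfg A) : Option (Cfg A) :=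
  (A.δ c.q (fun i => c.tape i (c.head i))).map fun r =>
    { q := r.1
      tape := fun i => Function.update (c.tape i) (c.head i) (r.2.1 i)
      head := fun i => (r.2.2 i).apply (c.head i) }

/-- The configuration after exactly `t` steps (`none` if the machine halted earlier). -/
def iter {k : ℕ} (A : Machine k) : ℕ → Cfg A → Option (Cfg A)
  | 0, c => some c
  | t + 1, c => (step A c).bind (iter A t)

/-- Started in `c`, the machine makes exactly `t` steps and then halts in `c'`. -/
def HaltsAt {k : ℕ} (A : Machine k) (c : Cfg A) (t : ℕ) (c' : Cfg A) : Prop :=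
  iter A t c = some c' ∧ step A c' = none

/-- Value of a binary string, leftmost bit most significant. -/
def val {n : ℕ} (x : Fin n → Bool) : ℕ :=
  ∑ i : Fin n, (x i).toNat * 2 ^ (n - 1 - (i : ℕ))

/-- The input word `x # y` as the content of a tape (blank beyond the word). -/
def inputTape {k : ℕ} (A : Machine k) {n : ℕ} (x y : Fin n → Bool) : ℕ → A.Γ := fun j =>
  if h : j < n then A.sym (some (x ⟨j, h⟩))
  else if j = n then A.sym none
  else if h' : j - (n + 1) < n then A.sym (some (y ⟨j - (n + 1), h'⟩))
  else A.blank

/-- Initial configuration: input on the first tape, other tapes blank, heads on cell `0`. -/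
def init {k : ℕ} (A : Machine k) {n : ℕ} (x y : Fin n → Bool) : Cfg A where
  q := A.start
  tape := fun i => if (i : ℕ) = 0 then inputTape A x y else fun _ => A.blank
  head := fun _ => 0

/-- `A` multiplies: on every input `x # y` with `x y` of length `n ≥ 1` it halts, and then the first
`2 n` cells of the output tape hold the `2 n`-bit binary representation of `val x * val y`,
most significant bit first. -/
def Multiplies {k : ℕ} (A : Machine k) : Prop :=
  ∀ n : ℕ, 1 ≤ n → ∀ x y : Fin n → Bool, ∃ (t : ℕ) (c' : Cfg A), HaltsAt A (init A x y) t c' ∧
    ∀ j : ℕ, j < 2 * n →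
      c'.tape A.out j = A.sym (some ((val x * val y).testBit (2 * n - 1 - j)))

/-- Number of steps made from `c` before halting (`0` if the machine never halts). -/
noncomputable def haltTime {k : ℕ} (A : Machine k) (c : Cfg A) : ℕ :=
  sInf {t | ∃ c', HaltsAt A c t c'}

/-- Worst-case running time `T_A(n)` over all inputs `x # y` with `x y` of length `n`. -/
noncomputable def worstTime {k : ℕ} (A : Machine k) (n : ℕ) : ℕ :=
  Finset.univ.sup fun xy : (Fin n → Bool) × (Fin n → Bool) => haltTime A (init A xy.1 xy.2)

end Vale.Agent.P338
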