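import Vale.Agent.P338.Bridge
import Vale.Agent.P338.Bits

namespace Vale.Agent.P338

/-- pad a string of length `m` by zeros on the right to length `n` -/
def padR (m n : ℕ) (z : Fin m → Bool) : Fin n → Bool :=
  fun i => if h : (i : ℕ) < m then z ⟨i, h⟩ else false

theorem view_init_eq (A : Machine 1) {n : ℕ} (x y y' : Fin n → Bool) (b : ℕ) (hb : b ≤ n + 1) :
    view A.blank b (flat (init A x y)) = view A.blank b (flat (init A x y')) := by
  simp only [view, flat, init]
  congr 1
  funext i
  simp only [mask]
  by_cases hi : i < b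
  · simp only [hi, if_true, Fin.val_zero, inputTape]
    by_cases h1 : i < n
    · simp [h1]
    · have h2 : i = n := by omega
      simp [h2]
  · simp [hi]

theorem one_tape_count (A : Machine 1) (hA : Multiplies A) (n : ℕ) (hn : 1 ≤ n) :
    2 ^ (n / 2) ≤ (n + 2) *
      (@Fintype.card A.Q A.finQ + 1) ^ (worstTime A n / (n - n / 2 + 1)) := by
  classical
  let _ : Fintype A.Q := A.finQ
  set m := n / 2 with hm
  set W := n - m + 1 with hW
  set T := worstTime A n with hT
  set ℓ := T / W with hℓ
  have hmn : m ≤ n := Nat.div_le_self n 2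
  have hWpos : 0 < W := by omega
  let x0 := topBit n
  let Y : (Fin m → Bool) → (Fin n → Bool) := padR m n
  have hrun := fun z => hA n hn x0 (Y z)
  choose t c' hhalt hout using hrun
  have htT : ∀ z, t z ≤ T := by
    intro z
    have h1 : haltTime A (init A x0 (Y z)) = t z := haltTime_eq A _ _ _ (hhalt z)
    rw [← h1, hT, worstTime]
    exact Finset.le_sup (f := fun xy : (Fin n → Bool) × (Fin n → Bool) =>
      haltTime A (init A xy.1 xy.2)) (Finset.mem_univ (x0, Y z))
  let S : Finset ℕ := Finset.Icc (m + 1) (n + 1)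
  have hScard : S.card = W := by
    simp only [S, Nat.card_Icc]; omega
  let δ := flatδ A
  let C : (Fin m → Bool) → ℕ → List A.Q := fun z b => cs δ b (t z) (flat (init A x0 (Y z)))
  have hex : ∀ z, ∃ b ∈ S, (C z b).length ≤ ℓ := by
    intro z
    by_contra hcon
    push Not at hcon
    have h1 : S.card • (ℓ + 1) ≤ ∑ b ∈ S, (C z b).length :=
      Finset.card_nsmul_le_sum S _ _ (fun b hb => hcon b hb)
    have h2 : ∑ b ∈ S, (C z b).length ≤ t z := sum_cs_le δ S (t z) _
    have h3 : T < W * (ℓ + 1) := by
      rw [hℓ]; exact Nat.lt_mul_div_succ T hWpos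
    rw [hScard, smul_eq_mul] at h1
    have := htT z
    omega
  choose bz hbzS hbzlen using hex
  let Φ : (Fin m → Bool) → Fin (n + 2) × (Fin ℓ → Option A.Q) := fun z =>
    (⟨bz z, by have := Finset.mem_Icc.1 (hbzS z); omega⟩, fun i => (C z (bz z))[(i : ℕ)]?)
  have hinj : Function.Injective Φ := by
    intro z z' hzz
    simp only [Φ, Prod.mk.injEq, Fin.mk.injEq] at hzz
    obtain ⟨hb, hl⟩ := hzz
    have hlist : C z (bz z) = C z' (bz z') := by
      apply List.ext_getElem?
      intro i
      by_cases hi : i < ℓ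
      · exact congrFun hl ⟨i, hi⟩
      · have h1 : (C z (bz z)).length ≤ i := le_trans (hbzlen z) (by omega)
        have h2 : (C z' (bz z')).length ≤ i := le_trans (hbzlen z') (by omega)
        rw [List.getElem?_eq_none h1, List.getElem?_eq_none h2]
    have hbS := Finset.mem_Icc.1 (hbzS z)
    obtain ⟨f1, g1⟩ := flat_halts A _ _ _ (hhalt z)
    obtain ⟨f2, g2⟩ := flat_halts A _ _ _ (hhalt z')
    have hfin := final_left_eq δ A.blank (bz z) (by omega) (t z) (t z') _ _ _ _ f1 g1 f2 g2
      (view_init_eq A x0 (Y z) (Y z') (bz z) hbS.2)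
      (by
        have : C z' (bz z') = cs δ (bz z) (t z') (flat (init A x0 (Y z'))) := by
          simp only [C]; rw [hb]
        rw [← this]; exact hlist)
    funext i
    have hi := i.2
    have h1 := hfin ((i : ℕ) + 1) (by omega)
    simp only [flat] at h1
    have hout0 : A.out = 0 := Subsingleton.elim _ _
    have h2 := hout z ((i : ℕ) + 1) (by omega)
    have h3 := hout z' ((i : ℕ) + 1) (by omega)
    rw [hout0] at h2 h3
    rw [h2, h3] at h1
    have h4 := A.sym_inj h1
    simp only [Option.some.injEq] at h4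
    have hin : (i : ℕ) < n := by omega
    have e1 := shift_bit hn (Y z) ⟨i, hin⟩
    have e2 := shift_bit hn (Y z') ⟨i, hin⟩
    simp only at e1 e2
    rw [e1, e2] at h4
    simpa [Y, padR, hi] using h4
  have hcard := Fintype.card_le_of_injective Φ hinj
  simpa [Fintype.card_prod, Fintype.card_fin, Fintype.card_pi, Fintype.card_option] using hcard

end Vale.Agent.P338
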