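import Vale.Agent.P338.Model

/-!
The binary matrix transposition problem on multitape Turing machines (same machine model as for
multiplication, see `Model.lean`).
-/

namespace Vale.Agent.P338

/-- The `n × n` bit matrix `M` written row by row on a tape: the entry `M i j` is in cell `i * n + j`;
all cells from `n * n` on are blank. -/
def matTape {k : ℕ} (B : Machine k) {n : ℕ} (M : Fin n → Fin n → Bool) : ℕ → B.Γ := fun p =>
  if h : p < n * n then
    B.sym (some (M ⟨p / n, Nat.div_lt_of_lt_mul h⟩
      ⟨p % n, Nat.mod_lt _ (Nat.pos_of_ne_zero fun e => by subst e; simp at h)⟩))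
  else B.blank

/-- Initial configuration: the matrix on the first tape, other tapes blank, heads on cell `0`. -/
def initT {k : ℕ} (B : Machine k) {n : ℕ} (M : Fin n → Fin n → Bool) : Cfg B where
  q := B.start
  tape := fun i => if (i : ℕ) = 0 then matTape B M else fun _ => B.blank
  head := fun _ => 0

/-- `B` transposes: on every `n × n` bit matrix (`n ≥ 1`) it halts, and then the first `n * n` cells of
the output tape hold the transposed matrix row by row, that is, cell `j * n + i` holds `M i j`. -/
def Transposes {k : ℕ} (B : Machine k) : Prop :=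
  ∀ n : ℕ, 1 ≤ n → ∀ M : Fin n → Fin n → Bool, ∃ (t : ℕ) (c' : Cfg B), HaltsAt B (initT B M) t c' ∧
    ∀ i j : Fin n, c'.tape B.out ((j : ℕ) * n + (i : ℕ)) = B.sym (some (M i j))

/-- Worst-case running time over all `n × n` bit matrices. -/
noncomputable def transTime {k : ℕ} (B : Machine k) (n : ℕ) : ℕ :=
  Finset.univ.sup fun M : Fin n → Fin n → Bool => haltTime B (initT B M)

end Vale.Agent.P338
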